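import Vale.Agent.P236U.Par
import Vale.Agent.P236Y.Defs
import Vale.Agent.P236Yt.W15

/-!
# P236, block TABC: kernel checks
-/

namespace Vale.Agent.P236T

open Vale.Agent.P236C Vale.Agent.P236Y

theorem chkR15_0 : allLt 8 (fun T => chkR lay0 par (RW (B0 15) W15) 15 (Nat.add 0 T)) = true := by
  decide +kernel

theorem chkR15_8 : allLt 8 (fun T => chkR lay0 par (RW (B0 15) W15) 15 (Nat.add 8 T)) = true := by
  decide +kernel

theorem chkR15_16 : allLt 8 (fun T => chkR lay0 par (RW (B0 15) W15) 15 (Nat.add 16 T)) = true := by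
  decide +kernel

theorem chkR15_24 : allLt 8 (fun T => chkR lay0 par (RW (B0 15) W15) 15 (Nat.add 24 T)) = true := by
  decide +kernel

theorem chkR15_32 : allLt 8 (fun T => chkR lay0 par (RW (B0 15) W15) 15 (Nat.add 32 T)) = true := by
  decide +kernel

theorem chkR15_40 : allLt 8 (fun T => chkR lay0 par (RW (B0 15) W15) 15 (Nat.add 40 T)) = true := by
  decide +kernel

theorem chkR15_48 : allLt 8 (fun T => chkR lay0 par (RW (B0 15) W15) 15 (Nat.add 48 T)) = true := by
  decide +kernel

theorem chkR15_56 : allLt 8 (fun T => chkR lay0 par (RW (B0 15) W15) 15 (Nat.add 56 T)) = true := by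
  decide +kernel

theorem chkR15_64 : allLt 8 (fun T => chkR lay0 par (RW (B0 15) W15) 15 (Nat.add 64 T)) = true := by
  decide +kernel

theorem chkR15_72 : allLt 8 (fun T => chkR lay0 par (RW (B0 15) W15) 15 (Nat.add 72 T)) = true := by
  decide +kernel

theorem chkR15_80 : allLt 8 (fun T => chkR lay0 par (RW (B0 15) W15) 15 (Nat.add 80 T)) = true := by
  decide +kernel

theorem chkR15_88 : allLt 8 (fun T => chkR lay0 par (RW (B0 15) W15) 15 (Nat.add 88 T)) = true := by
  decide +kernel

end Vale.Agent.P236T
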