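import Vale.Agent.P236U.Par
import Vale.Agent.P236Y.Defs
import Vale.Agent.P236Yt.W3

/-!
# P236, block TABC: kernel checks
-/

namespace Vale.Agent.P236T

open Vale.Agent.P236C Vale.Agent.P236Y

theorem chkR3_0 : allLt 8 (fun T => chkR lay0 par (RW (B0 3) W3) 3 (Nat.add 0 T)) = true := by
  decide +kernel

theorem chkR3_8 : allLt 8 (fun T => chkR lay0 par (RW (B0 3) W3) 3 (Nat.add 8 T)) = true := by
  decide +kernel

theorem chkR3_16 : allLt 8 (fun T => chkR lay0 par (RW (B0 3) W3) 3 (Nat.add 16 T)) = true := by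
  decide +kernel

theorem chkR3_24 : allLt 8 (fun T => chkR lay0 par (RW (B0 3) W3) 3 (Nat.add 24 T)) = true := by
  decide +kernel

theorem chkR3_32 : allLt 8 (fun T => chkR lay0 par (RW (B0 3) W3) 3 (Nat.add 32 T)) = true := by
  decide +kernel

theorem chkR3_40 : allLt 8 (fun T => chkR lay0 par (RW (B0 3) W3) 3 (Nat.add 40 T)) = true := by
  decide +kernel

theorem chkR3_48 : allLt 8 (fun T => chkR lay0 par (RW (B0 3) W3) 3 (Nat.add 48 T)) = true := by
  decide +kernel

theorem chkR3_56 : allLt 8 (fun T => chkR lay0 par (RW (B0 3) W3) 3 (Nat.add 56 T)) = true := by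
  decide +kernel

theorem chkR3_64 : allLt 8 (fun T => chkR lay0 par (RW (B0 3) W3) 3 (Nat.add 64 T)) = true := by
  decide +kernel

theorem chkR3_72 : allLt 8 (fun T => chkR lay0 par (RW (B0 3) W3) 3 (Nat.add 72 T)) = true := by
  decide +kernel

theorem chkR3_80 : allLt 8 (fun T => chkR lay0 par (RW (B0 3) W3) 3 (Nat.add 80 T)) = true := by
  decide +kernel

theorem chkR3_88 : allLt 8 (fun T => chkR lay0 par (RW (B0 3) W3) 3 (Nat.add 88 T)) = true := by
  decide +kernel

end Vale.Agent.P236T
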