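import Vale.Agent.P236U.Par

/-!
# P236, block TABC: kernel checks
-/

namespace Vale.Agent.P236T

theorem chkS0 : chkS lay0 par 0 = true := by
  decide +kernel

theorem chkS1 : chkS lay0 par 1 = true := by
  decide +kernel

theorem chkS2 : chkS lay0 par 2 = true := by
  decide +kernel

theorem chkS3 : chkS lay0 par 3 = true := by
  decide +kernel

end Vale.Agent.P236T
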