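import Vale.Agent.P236U.Par

/-!
# P236, block TABC: kernel checks
-/

namespace Vale.Agent.P236T

theorem chkS12 : chkS lay0 par 12 = true := by
  decide +kernel

theorem chkS13 : chkS lay0 par 13 = true := by
  decide +kernel

theorem chkS14 : chkS lay0 par 14 = true := by
  decide +kernel

theorem chkS15 : chkS lay0 par 15 = true := by
  decide +kernel

end Vale.Agent.P236T
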