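import Vale.Agent.P236U.Par

/-!
# P236, block TABC: kernel checks
-/

namespace Vale.Agent.P236T

theorem chkS16 : chkS lay0 par 16 = true := by
  decide +kernel

theorem chkS17 : chkS lay0 par 17 = true := by
  decide +kernel

theorem chkS18 : chkS lay0 par 18 = true := by
  decide +kernel

theorem chkS19 : chkS lay0 par 19 = true := by
  decide +kernel

end Vale.Agent.P236T
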