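import Vale.Agent.P236U.Par

/-!
# P236, block TABC: kernel checks
-/

namespace Vale.Agent.P236T

theorem chkS20 : chkS lay0 par 20 = true := by
  decide +kernel

theorem chkS21 : chkS lay0 par 21 = true := by
  decide +kernel

theorem chkS22 : chkS lay0 par 22 = true := by
  decide +kernel

theorem chkS23 : chkS lay0 par 23 = true := by
  decide +kernel

end Vale.Agent.P236T
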