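import Vale.Agent.P236U.Par

/-!
# P236, block TABC: kernel checks
-/

namespace Vale.Agent.P236T

theorem chkS4 : chkS lay0 par 4 = true := by
  decide +kernel

theorem chkS5 : chkS lay0 par 5 = true := by
  decide +kernel

theorem chkS6 : chkS lay0 par 6 = true := by
  decide +kernel

theorem chkS7 : chkS lay0 par 7 = true := by
  decide +kernel

end Vale.Agent.P236T
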