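import Vale.Agent.P236U.Par

/-!
# P236, block TABC: kernel checks
-/

namespace Vale.Agent.P236T

theorem chkS8 : chkS lay0 par 8 = true := by
  decide +kernel

theorem chkS9 : chkS lay0 par 9 = true := by
  decide +kernel

theorem chkS10 : chkS lay0 par 10 = true := by
  decide +kernel

theorem chkS11 : chkS lay0 par 11 = true := by
  decide +kernel

end Vale.Agent.P236T
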