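import Vale.Agent.P236U.R0
import Vale.Agent.P236U.R1
import Vale.Agent.P236U.R2
import Vale.Agent.P236U.R3
import Vale.Agent.P236U.R4
import Vale.Agent.P236U.R5
import Vale.Agent.P236U.R6
import Vale.Agent.P236U.R7
import Vale.Agent.P236U.R8
import Vale.Agent.P236U.R9
import Vale.Agent.P236U.R10
import Vale.Agent.P236U.R11
import Vale.Agent.P236U.R12
import Vale.Agent.P236U.R13
import Vale.Agent.P236U.R14
import Vale.Agent.P236U.R15
import Vale.Agent.P236U.R16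
import Vale.Agent.P236U.R17
import Vale.Agent.P236U.R18
import Vale.Agent.P236U.R19
import Vale.Agent.P236U.R20
import Vale.Agent.P236U.R21
import Vale.Agent.P236U.R22
import Vale.Agent.P236U.R23
import Vale.Agent.P236U.S0
import Vale.Agent.P236U.S4
import Vale.Agent.P236U.S8
import Vale.Agent.P236U.S12
import Vale.Agent.P236U.S16
import Vale.Agent.P236U.S20

/-!
# P236, block TABC: the tables are certified
-/

namespace Vale.Agent.P236T

open Vale.Agent.P236A Vale.Agent.P236C Vale.Agent.P236Y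

theorem blk {f : ℕ → Bool}
    (h0 : allLt 8 (fun T => f (Nat.add 0 T)) = true)
    (h1 : allLt 8 (fun T => f (Nat.add 8 T)) = true)
    (h2 : allLt 8 (fun T => f (Nat.add 16 T)) = true)
    (h3 : allLt 8 (fun T => f (Nat.add 24 T)) = true)
    (h4 : allLt 8 (fun T => f (Nat.add 32 T)) = true)
    (h5 : allLt 8 (fun T => f (Nat.add 40 T)) = true)
    (h6 : allLt 8 (fun T => f (Nat.add 48 T)) = true)
    (h7 : allLt 8 (fun T => f (Nat.add 56 T)) = true)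
    (h8 : allLt 8 (fun T => f (Nat.add 64 T)) = true)
    (h9 : allLt 8 (fun T => f (Nat.add 72 T)) = true)
    (h10 : allLt 8 (fun T => f (Nat.add 80 T)) = true)
    (h11 : allLt 8 (fun T => f (Nat.add 88 T)) = true)
    (T : ℕ) (hT : T ≤ 94) : f T = true := by
  rw [← Nat.div_add_mod T 8]
  have h := Nat.mod_lt T (show 0 < 8 by norm_num)
  have hb : T / 8 < 12 := by omega
  generalize T / 8 = a at hb
  interval_cases a
  exacts [allLt_spec h0 _ h, allLt_spec h1 _ h, allLt_spec h2 _ h, allLt_spec h3 _ h, allLt_spec h4 _ h, allLt_spec h5 _ h, allLt_spec h6 _ h, allLt_spec h7 _ h, allLt_spec h8 _ h, allLt_spec h9 _ h, allLt_spec h10 _ h, allLt_spec h11 _ h]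

/-- the rows of all levels -/
noncomputable def Wall : ℕ → ℕ → ℕ → ℕ → ℕ
  | 0 => W0
  | 1 => W1
  | 2 => W2
  | 3 => W3
  | 4 => W4
  | 5 => W5
  | 6 => W6
  | 7 => W7
  | 8 => W8
  | 9 => W9
  | 10 => W10
  | 11 => W11
  | 12 => W12
  | 13 => W13
  | 14 => W14
  | 15 => W15
  | 16 => W16
  | 17 => W17
  | 18 => W18
  | 19 => W19
  | 20 => W20
  | 21 => W21
  | 22 => W22
  | _ => W23

theorem chkS_all : ∀ s ≤ 23, chkS lay0 par s = true
  | 0, _ => chkS0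
  | 1, _ => chkS1
  | 2, _ => chkS2
  | 3, _ => chkS3
  | 4, _ => chkS4
  | 5, _ => chkS5
  | 6, _ => chkS6
  | 7, _ => chkS7
  | 8, _ => chkS8
  | 9, _ => chkS9
  | 10, _ => chkS10
  | 11, _ => chkS11
  | 12, _ => chkS12
  | 13, _ => chkS13
  | 14, _ => chkS14
  | 15, _ => chkS15
  | 16, _ => chkS16
  | 17, _ => chkS17
  | 18, _ => chkS18
  | 19, _ => chkS19
  | 20, _ => chkS20
  | 21, _ => chkS21
  | 22, _ => chkS22
  | 23, _ => chkS23
  | _ + 24, h => absurd h (by omega)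

theorem chkR_all : ∀ s ≤ 23, ∀ T ≤ 94, chkR lay0 par (RW (B0 s) (Wall s)) s T = true
  | 0, _ => blk (f := chkR lay0 par (RW (B0 0) W0) 0)
      chkR0_0 chkR0_8 chkR0_16 chkR0_24 chkR0_32 chkR0_40 chkR0_48 chkR0_56 chkR0_64 chkR0_72 chkR0_80 chkR0_88
  | 1, _ => blk (f := chkR lay0 par (RW (B0 1) W1) 1)
      chkR1_0 chkR1_8 chkR1_16 chkR1_24 chkR1_32 chkR1_40 chkR1_48 chkR1_56 chkR1_64 chkR1_72 chkR1_80 chkR1_88
  | 2, _ => blk (f := chkR lay0 par (RW (B0 2) W2) 2)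
      chkR2_0 chkR2_8 chkR2_16 chkR2_24 chkR2_32 chkR2_40 chkR2_48 chkR2_56 chkR2_64 chkR2_72 chkR2_80 chkR2_88
  | 3, _ => blk (f := chkR lay0 par (RW (B0 3) W3) 3)
      chkR3_0 chkR3_8 chkR3_16 chkR3_24 chkR3_32 chkR3_40 chkR3_48 chkR3_56 chkR3_64 chkR3_72 chkR3_80 chkR3_88
  | 4, _ => blk (f := chkR lay0 par (RW (B0 4) W4) 4)
      chkR4_0 chkR4_8 chkR4_16 chkR4_24 chkR4_32 chkR4_40 chkR4_48 chkR4_56 chkR4_64 chkR4_72 chkR4_80 chkR4_88
  | 5, _ => blk (f := chkR lay0 par (RW (B0 5) W5) 5)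
      chkR5_0 chkR5_8 chkR5_16 chkR5_24 chkR5_32 chkR5_40 chkR5_48 chkR5_56 chkR5_64 chkR5_72 chkR5_80 chkR5_88
  | 6, _ => blk (f := chkR lay0 par (RW (B0 6) W6) 6)
      chkR6_0 chkR6_8 chkR6_16 chkR6_24 chkR6_32 chkR6_40 chkR6_48 chkR6_56 chkR6_64 chkR6_72 chkR6_80 chkR6_88
  | 7, _ => blk (f := chkR lay0 par (RW (B0 7) W7) 7)
      chkR7_0 chkR7_8 chkR7_16 chkR7_24 chkR7_32 chkR7_40 chkR7_48 chkR7_56 chkR7_64 chkR7_72 chkR7_80 chkR7_88
  | 8, _ => blk (f := chkR lay0 par (RW (B0 8) W8) 8)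
      chkR8_0 chkR8_8 chkR8_16 chkR8_24 chkR8_32 chkR8_40 chkR8_48 chkR8_56 chkR8_64 chkR8_72 chkR8_80 chkR8_88
  | 9, _ => blk (f := chkR lay0 par (RW (B0 9) W9) 9)
      chkR9_0 chkR9_8 chkR9_16 chkR9_24 chkR9_32 chkR9_40 chkR9_48 chkR9_56 chkR9_64 chkR9_72 chkR9_80 chkR9_88
  | 10, _ => blk (f := chkR lay0 par (RW (B0 10) W10) 10)
      chkR10_0 chkR10_8 chkR10_16 chkR10_24 chkR10_32 chkR10_40 chkR10_48 chkR10_56 chkR10_64 chkR10_72 chkR10_80 chkR10_88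
  | 11, _ => blk (f := chkR lay0 par (RW (B0 11) W11) 11)
      chkR11_0 chkR11_8 chkR11_16 chkR11_24 chkR11_32 chkR11_40 chkR11_48 chkR11_56 chkR11_64 chkR11_72 chkR11_80 chkR11_88
  | 12, _ => blk (f := chkR lay0 par (RW (B0 12) W12) 12)
      chkR12_0 chkR12_8 chkR12_16 chkR12_24 chkR12_32 chkR12_40 chkR12_48 chkR12_56 chkR12_64 chkR12_72 chkR12_80 chkR12_88
  | 13, _ => blk (f := chkR lay0 par (RW (B0 13) W13) 13)
      chkR13_0 chkR13_8 chkR13_16 chkR13_24 chkR13_32 chkR13_40 chkR13_48 chkR13_56 chkR13_64 chkR13_72 chkR13_80 chkR13_88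
  | 14, _ => blk (f := chkR lay0 par (RW (B0 14) W14) 14)
      chkR14_0 chkR14_8 chkR14_16 chkR14_24 chkR14_32 chkR14_40 chkR14_48 chkR14_56 chkR14_64 chkR14_72 chkR14_80 chkR14_88
  | 15, _ => blk (f := chkR lay0 par (RW (B0 15) W15) 15)
      chkR15_0 chkR15_8 chkR15_16 chkR15_24 chkR15_32 chkR15_40 chkR15_48 chkR15_56 chkR15_64 chkR15_72 chkR15_80 chkR15_88
  | 16, _ => blk (f := chkR lay0 par (RW (B0 16) W16) 16)
      chkR16_0 chkR16_8 chkR16_16 chkR16_24 chkR16_32 chkR16_40 chkR16_48 chkR16_56 chkR16_64 chkR16_72 chkR16_80 chkR16_88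
  | 17, _ => blk (f := chkR lay0 par (RW (B0 17) W17) 17)
      chkR17_0 chkR17_8 chkR17_16 chkR17_24 chkR17_32 chkR17_40 chkR17_48 chkR17_56 chkR17_64 chkR17_72 chkR17_80 chkR17_88
  | 18, _ => blk (f := chkR lay0 par (RW (B0 18) W18) 18)
      chkR18_0 chkR18_8 chkR18_16 chkR18_24 chkR18_32 chkR18_40 chkR18_48 chkR18_56 chkR18_64 chkR18_72 chkR18_80 chkR18_88
  | 19, _ => blk (f := chkR lay0 par (RW (B0 19) W19) 19)
      chkR19_0 chkR19_8 chkR19_16 chkR19_24 chkR19_32 chkR19_40 chkR19_48 chkR19_56 chkR19_64 chkR19_72 chkR19_80 chkR19_88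
  | 20, _ => blk (f := chkR lay0 par (RW (B0 20) W20) 20)
      chkR20_0 chkR20_8 chkR20_16 chkR20_24 chkR20_32 chkR20_40 chkR20_48 chkR20_56 chkR20_64 chkR20_72 chkR20_80 chkR20_88
  | 21, _ => blk (f := chkR lay0 par (RW (B0 21) W21) 21)
      chkR21_0 chkR21_8 chkR21_16 chkR21_24 chkR21_32 chkR21_40 chkR21_48 chkR21_56 chkR21_64 chkR21_72 chkR21_80 chkR21_88
  | 22, _ => blk (f := chkR lay0 par (RW (B0 22) W22) 22)
      chkR22_0 chkR22_8 chkR22_16 chkR22_24 chkR22_32 chkR22_40 chkR22_48 chkR22_56 chkR22_64 chkR22_72 chkR22_80 chkR22_88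
  | 23, _ => blk (f := chkR lay0 par (RW (B0 23) W23) 23)
      chkR23_0 chkR23_8 chkR23_16 chkR23_24 chkR23_32 chkR23_40 chkR23_48 chkR23_56 chkR23_64 chkR23_72 chkR23_80 chkR23_88
  | _ + 24, h => absurd h (by omega)

/-- **The tables are certified** as soon as the rows are the rows of the differential. -/
theorem cert_par {δ : Mat (Io 23) (Av (ZMod 9))} (hδ : HomD 3 (Gam 23) δ)
    (h : ∀ s ≤ 23, IsR lay0 δ s (aa0 s) (Nn0 s) (RW (B0 s) (Wall s))) :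
    Nonempty (Cert (Gam 23) δ tau0 23 94 aa0 Nn0) :=
  cert_of (P := par) hδ gd chkS_all fun s hs T hT => ⟨_, h s hs, chkR_all s hs T hT⟩

end Vale.Agent.P236T
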